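import Mathlib.Algebra.BigOperators.Fin
import Mathlib.Algebra.Order.BigOperators.Group.Finset
import Mathlib.Data.Real.Basic
import Mathlib.Data.Finset.Lattice.Fold
import Mathlib.Order.Interval.Finset.Basic
import Mathlib.Data.Finset.Interval
import Mathlib.Tactic

/-! P038: comparison of the inner and the outer minimum cut (helper558). Part 1: marginals of a
submodular function along a vertex order. -/

namespace Vale.Agent.P038.H558

open Finset

variable {V : Type*} [Fintype V] [DecidableEq V]

/-- Submodular set functions. -/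
def Submod (c : Finset V → ℝ) : Prop := ∀ S T, c (S ∪ T) + c (S ∩ T) ≤ c S + c T

/-- Initial segments of the vertex order given by `e`. -/
def P (e : V ≃ Fin (Fintype.card V)) (t : ℕ) : Finset V := univ.filter (fun b => (e b : ℕ) < t)

/-- The minimum of `c` over `[H, H ∪ (G ∩ P t)]`. -/
noncomputable def ff (e : V ≃ Fin (Fintype.card V)) (c : Finset V → ℝ) (H G : Finset V) (t : ℕ) :
    ℝ :=
  (Finset.Icc H (H ∪ (G ∩ P e t))).inf' ⟨H, by simp⟩ c

/-- The marginals. -/
noncomputable def eps (e : V ≃ Fin (Fintype.card V)) (c : Finset V → ℝ) (H G : Finset V) (a : V) :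
    ℝ :=
  ff e c H G (e a) - ff e c H G ((e a : ℕ) + 1)

variable (e : V ≃ Fin (Fintype.card V)) (c : Finset V → ℝ)

theorem ff_le {H G Z : Finset V} {t : ℕ} (h1 : H ⊆ Z) (h2 : Z ⊆ H ∪ (G ∩ P e t)) :
    ff e c H G t ≤ c Z :=
  Finset.inf'_le _ (by simp [h1, h2])

theorem exists_ff (H G : Finset V) (t : ℕ) :
    ∃ Z, H ⊆ Z ∧ Z ⊆ H ∪ (G ∩ P e t) ∧ ff e c H G t = c Z := by
  obtain ⟨Z, hZ, h⟩ := Finset.exists_mem_eq_inf' (s := Finset.Icc H (H ∪ (G ∩ P e t)))
    ⟨H, by simp⟩ c
  rw [Finset.mem_Icc] at hZ
  exact ⟨Z, hZ.1, hZ.2, h⟩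

theorem P_mono {s t : ℕ} (h : s ≤ t) : P e s ⊆ P e t := by
  intro b hb
  simp only [P, mem_filter, mem_univ, true_and] at hb ⊢
  omega

theorem mem_P {b : V} {t : ℕ} : b ∈ P e t ↔ (e b : ℕ) < t := by simp [P]

theorem ff_anti (H G : Finset V) {s t : ℕ} (h : s ≤ t) : ff e c H G t ≤ ff e c H G s := by
  obtain ⟨Z, h1, h2, h3⟩ := exists_ff e c H G s
  rw [h3]
  exact ff_le e c h1 (h2.trans (union_subset_union_right (inter_subset_inter_left (P_mono e h))))

theorem eps_nonneg (H G : Finset V) (a : V) : 0 ≤ eps e c H G a := by
  have := ff_anti e c H G (Nat.le_succ (e a : ℕ))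
  simp only [eps]; linarith

theorem eps_zero {H G : Finset V} {a : V} (h : a ∉ G ∨ a ∈ H) : eps e c H G a = 0 := by
  have key : H ∪ (G ∩ P e ((e a : ℕ) + 1)) = H ∪ (G ∩ P e (e a : ℕ)) := by
    ext b
    simp only [mem_union, mem_inter, mem_P]
    constructor
    · rintro (hb | ⟨hb, h2⟩)
      · exact Or.inl hb
      · by_cases hba : b = a
        · subst hba
          rcases h with h | h
          · exact absurd hb h
          · exact Or.inl h
        · right
          refine ⟨hb, ?_⟩
          have : (e b : ℕ) ≠ (e a : ℕ) := fun h => hba (e.injective (Fin.ext h))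
          omega
    · rintro (hb | ⟨hb, h2⟩)
      · exact Or.inl hb
      · exact Or.inr ⟨hb, by omega⟩
  simp only [eps, ff, key, sub_self]

theorem ff_zero (H G : Finset V) : ff e c H G 0 = c H := by
  have hP : P e 0 = ∅ := by ext b; simp [mem_P]
  apply le_antisymm
  · exact ff_le e c (Finset.Subset.refl H) subset_union_left
  · obtain ⟨Z, h1, h2, h3⟩ := exists_ff e c H G 0
    rw [h3]
    have : Z = H := by
      apply Finset.Subset.antisymm _ h1
      rw [hP] at h2
      simpa using h2
    rw [this]

theorem P_top : P e (Fintype.card V) = univ := by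
  ext b; simp [mem_P]

theorem sum_eps (H G : Finset V) :
    ∑ a, eps e c H G a = c H - ff e c H G (Fintype.card V) := by
  rw [← ff_zero e c H G]
  have : ∑ a, eps e c H G a = ∑ i : Fin (Fintype.card V), (ff e c H G (i : ℕ)
      - ff e c H G ((i : ℕ) + 1)) := by
    rw [← e.sum_comp]
    rfl
  rw [this, Fin.sum_univ_eq_sum_range (fun i => ff e c H G i - ff e c H G (i + 1)),
    Finset.sum_range_sub']

/-- Monotonicity of the marginals. -/
theorem eps_mono (hc : Submod c) {H G H' G' : Finset V} (hH : H ⊆ H') (hG : G ⊆ G') {a : V}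
    (ha : a ∉ H') : eps e c H G a ≤ eps e c H' G' a := by
  obtain ⟨Z, h1, h2, h3⟩ := exists_ff e c H G ((e a : ℕ) + 1)
  obtain ⟨Z', h1', h2', h3'⟩ := exists_ff e c H' G' (e a : ℕ)
  have hu : ff e c H' G' ((e a : ℕ) + 1) ≤ c (Z ∪ Z') := by
    apply ff_le e c (h1'.trans subset_union_right)
    apply union_subset
    · exact h2.trans (union_subset_union hH (inter_subset_inter_right hG))
    · exact h2'.trans (union_subset_union_right (inter_subset_inter_left
        (P_mono e (Nat.le_succ _))))
  have hi : ff e c H G (e a : ℕ) ≤ c (Z ∩ Z') := by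
    apply ff_le e c (subset_inter h1 (hH.trans h1'))
    intro b hb
    rw [mem_inter] at hb
    have hb1 := h2 hb.1
    have hb2 := h2' hb.2
    simp only [mem_union, mem_inter, mem_P] at hb1 hb2 ⊢
    rcases hb1 with hb1 | ⟨hb1, hb3⟩
    · exact Or.inl hb1
    · by_cases hba : b = a
      · subst hba
        rcases hb2 with hb2 | ⟨_, hb2⟩
        · exact absurd hb2 ha
        · omega
      · right
        refine ⟨hb1, ?_⟩
        have : (e b : ℕ) ≠ (e a : ℕ) := fun h => hba (e.injective (Fin.ext h))
        omega
  have := hc Z Z'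
  simp only [eps]
  linarith

/-- The layer cake lemma. -/
theorem layer (N : V → Finset V) (v : V → ℝ) (L₀ Q : Finset V)
    (hL : ∀ L ⊆ L₀, ∑ x ∈ L, v x ≤ ∑ x ∈ L.biUnion N \ Q, v x) :
    ∀ (k : ℕ) (g m : V → ℝ), (L₀.filter (fun x => 0 < g x)).card = k → (∀ x, 0 ≤ g x) →
      (∀ x, x ∉ L₀ → g x = 0) → (∀ x, x ∉ Q → 0 ≤ m x) →
      (∀ x, x ∉ Q → ∀ y ∈ L₀, x ∈ N y → g y ≤ m x) → (∀ x, 0 ≤ v x) →
      ∑ x, v x * g x ≤ ∑ x ∈ univ \ Q, v x * m x := by
  intro k
  induction k using Nat.strong_induction_on with
  | _ k ih =>
    intro g m hk hg hg0 hm hgm hv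
    set L := L₀.filter (fun x => 0 < g x) with hLdef
    by_cases hne : L.Nonempty
    · obtain ⟨x₀, hx₀, hmin⟩ := Finset.exists_min_image L g hne
      set θ := g x₀ with hθ
      have hθpos : 0 < θ := (Finset.mem_filter.mp hx₀).2
      let g' : V → ℝ := fun x => if x ∈ L then g x - θ else 0
      let m' : V → ℝ := fun x => if x ∈ L.biUnion N then m x - θ else m x
      have hgL : ∀ x, x ∉ L → g x = 0 := by
        intro x hx
        by_cases h0 : x ∈ L₀
        · have : ¬ 0 < g x := fun h => hx (Finset.mem_filter.mpr ⟨h0, h⟩)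
          exact le_antisymm (not_lt.mp this) (hg x)
        · exact hg0 x h0
      have hcard : (L₀.filter (fun x => 0 < g' x)).card < k := by
        rw [← hk]
        apply Finset.card_lt_card
        rw [Finset.ssubset_iff_of_subset]
        · refine ⟨x₀, hx₀, ?_⟩
          simp only [mem_filter, not_and, not_lt]
          intro _
          simp [g', hx₀, hθ]
        · intro x hx
          simp only [mem_filter] at hx
          by_contra hxL
          have : g' x = 0 := by simp [g', hxL]
          linarith [hx.2]
      have h1 := ih _ hcard g' m' rfl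
        (by
          intro x
          by_cases h : x ∈ L
          · simp only [g', h, if_true]
            linarith [hmin x h]
          · simp [g', h])
        (by
          intro x hx
          have : x ∉ L := fun h => hx (Finset.mem_filter.mp h).1
          simp [g', this])
        (by
          intro x hx
          by_cases h : x ∈ L.biUnion N
          · simp only [m', h, if_true]
            obtain ⟨y, hy, hxy⟩ := Finset.mem_biUnion.mp h
            have := hgm x hx y (Finset.mem_filter.mp hy).1 hxy
            linarith [hmin y hy]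
          · simp only [m', h, if_false]
            exact hm x hx)
        (by
          intro x hx y hy hxy
          by_cases h : y ∈ L
          · have hx' : x ∈ L.biUnion N := Finset.mem_biUnion.mpr ⟨y, h, hxy⟩
            simp only [g', m', h, hx', if_true]
            linarith [hgm x hx y hy hxy]
          · have : g' y = 0 := by simp [g', h]
            rw [this]
            by_cases h' : x ∈ L.biUnion N
            · simp only [m', h', if_true]
              obtain ⟨z, hz, hxz⟩ := Finset.mem_biUnion.mp h'
              have := hgm x hx z (Finset.mem_filter.mp hz).1 hxz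
              linarith [hmin z hz]
            · simp only [m', h', if_false]
              exact hm x hx)
        hv
      have e1 : ∑ x, v x * g x = ∑ x, v x * g' x + θ * ∑ x ∈ L, v x := by
        have : ∑ x ∈ L, v x = ∑ x, if x ∈ L then v x else 0 := by
          rw [Finset.sum_ite_mem, Finset.univ_inter]
        rw [this, Finset.mul_sum, ← Finset.sum_add_distrib]
        apply Finset.sum_congr rfl
        intro x _
        by_cases h : x ∈ L
        · simp only [g', h, if_true]; ring
        · simp only [g', h, if_false, hgL x h]; ring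
      have e2 : ∑ x ∈ univ \ Q, v x * m x = ∑ x ∈ univ \ Q, v x * m' x
          + θ * ∑ x ∈ L.biUnion N \ Q, v x := by
        have : ∑ x ∈ L.biUnion N \ Q, v x = ∑ x ∈ univ \ Q, if x ∈ L.biUnion N then v x else 0 := by
          rw [← Finset.sum_filter]
          apply Finset.sum_congr _ (fun _ _ => rfl)
          ext x; simp only [mem_sdiff, mem_filter, mem_univ, true_and]; tauto
        rw [this, Finset.mul_sum, ← Finset.sum_add_distrib]
        apply Finset.sum_congr rfl
        intro x _
        by_cases h : x ∈ L.biUnion N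
        · simp only [m', h, if_true]; ring
        · simp only [m', h, if_false]; ring
      rw [e1, e2]
      have := hL L (Finset.filter_subset _ _)
      have := mul_le_mul_of_nonneg_left this hθpos.le
      linarith
    · have hL0 : ∀ x, g x = 0 := by
        intro x
        by_cases h0 : x ∈ L₀
        · by_contra h
          exact hne ⟨x, Finset.mem_filter.mpr ⟨h0, lt_of_le_of_ne (hg x) (Ne.symm h)⟩⟩
        · exact hg0 x h0
      have : ∑ x, v x * g x = 0 := by
        apply Finset.sum_eq_zero; intro x _; rw [hL0 x, mul_zero]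
      rw [this]
      apply Finset.sum_nonneg
      intro x hx
      exact mul_nonneg (hv x) (hm x (Finset.mem_sdiff.mp hx).2)

end Vale.Agent.P038.H558
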