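import Vale.Agent.P038.H558.Core

/-! P038 (helper558): the left interiors of an equilibrium of the outer cut problem cost at most as
much as the equilibrium. -/

namespace Vale.Agent.P038.H558

open Finset

variable {V : Type*} [Fintype V] [DecidableEq V]

/-- Closed out-neighbourhood of a set. -/
def cl (N : V → Finset V) (R : Finset V) : Finset V := R.biUnion N

/-- Interior with respect to closed in-neighbourhoods. -/
def it (N : V → Finset V) (Z : Finset V) : Finset V := univ.filter (fun a => ∀ s, a ∈ N s → s ∈ Z)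

/-- Cost of a row: weight of the outer boundary (for reflexive `N`). -/
def cost (N : V → Finset V) (w : V → ℝ) (R : Finset V) : ℝ := ∑ x ∈ cl N R, w x - ∑ x ∈ R, w x

/-- Weight of the inner boundary. -/
def cm (N : V → Finset V) (w : V → ℝ) (Z : Finset V) : ℝ := ∑ x ∈ Z, w x - ∑ x ∈ it N Z, w x

/-- Left interior of a relation given by rows. -/
def li (N : V → Finset V) (B : V → Finset V) (a : V) : Finset V :=
  univ.filter (fun x => ∀ s, a ∈ N s → x ∈ B s)

theorem mem_cl {N : V → Finset V} {R : Finset V} {x : V} : x ∈ cl N R ↔ ∃ y ∈ R, x ∈ N y := by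
  simp [cl]

theorem mem_it {N : V → Finset V} {Z : Finset V} {a : V} :
    a ∈ it N Z ↔ ∀ s, a ∈ N s → s ∈ Z := by simp [it]

theorem mem_li {N B : V → Finset V} {a x : V} :
    x ∈ li N B a ↔ ∀ s, a ∈ N s → x ∈ B s := by simp [li]

theorem cost_eq_cm (N : V → Finset V) (w : V → ℝ) (R : Finset V) :
    cost N w R = cm N w (univ \ R) := by
  have h : it N (univ \ R) = univ \ cl N R := by
    ext a
    simp only [mem_it, mem_sdiff, mem_univ, true_and, mem_cl, not_exists, not_and]
    constructor
    · intro h y hy hay; exact h y hay hy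
    · intro h s hs hR; exact h s hR hs
  have h1 : ∑ x ∈ univ \ R, w x = ∑ x, w x - ∑ x ∈ R, w x := by
    rw [Finset.sum_sdiff_eq_sub (Finset.subset_univ R)]
  have h2 : ∑ x ∈ univ \ cl N R, w x = ∑ x, w x - ∑ x ∈ cl N R, w x := by
    rw [Finset.sum_sdiff_eq_sub (Finset.subset_univ _)]
  rw [cost, cm, h, h1, h2]; ring

theorem cm_submod (N : V → Finset V) (w : V → ℝ) (hw : ∀ x, 0 ≤ w x) : Submod (cm N w) := by
  intro S T
  have h1 : ∑ x ∈ S ∪ T, w x + ∑ x ∈ S ∩ T, w x = ∑ x ∈ S, w x + ∑ x ∈ T, w x :=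
    Finset.sum_union_inter
  have h2 : ∑ x ∈ it N S ∪ it N T, w x + ∑ x ∈ it N S ∩ it N T, w x
      = ∑ x ∈ it N S, w x + ∑ x ∈ it N T, w x := Finset.sum_union_inter
  have h3 : it N (S ∩ T) = it N S ∩ it N T := by
    ext a; simp only [mem_it, mem_inter]
    constructor
    · intro h; exact ⟨fun s hs => (h s hs).1, fun s hs => (h s hs).2⟩
    · intro h s hs; exact ⟨h.1 s hs, h.2 s hs⟩
  have h4 : ∑ x ∈ it N S ∪ it N T, w x ≤ ∑ x ∈ it N (S ∪ T), w x := by
    apply Finset.sum_le_sum_of_subset_of_nonneg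
    · intro a ha
      rw [mem_it]
      intro s hs
      rcases Finset.mem_union.mp ha with h | h
      · exact Finset.mem_union_left _ (mem_it.mp h s hs)
      · exact Finset.mem_union_right _ (mem_it.mp h s hs)
    · intro i _ _; exact hw i
  simp only [cm]; rw [h3]; linarith

/-- An equilibrium of the outer cut problem. -/
structure Equi (N : V → Finset V) (w v : V → ℝ) (B C : V → Finset V) : Prop where
  hB : ∀ a, N a ⊆ B a
  hC : ∀ x, N x ⊆ C x
  disj : ∀ a x, x ∈ B a → a ∈ C x → a = x
  row : ∀ a R, N a ⊆ R → (∀ x ∈ R, a ∈ C x → a = x) → cost N v (B a) ≤ cost N v R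
  col : ∀ x R, N x ⊆ R → (∀ a ∈ R, x ∈ B a → a = x) → cost N w (C x) ≤ cost N w R

section
variable {N : V → Finset V} {w v : V → ℝ} {B C : V → Finset V}

def H (B : V → Finset V) (x : V) : Finset V := univ.filter (fun a => x ∈ B a)
def H' (B : V → Finset V) (x : V) : Finset V := (H B x).erase x
def G (C : V → Finset V) (x : V) : Finset V := univ \ C x
def R (N B : V → Finset V) (x : V) : Finset V := univ.filter (fun a => x ∈ cl N (B a))
def R' (N B : V → Finset V) (x : V) : Finset V := (R N B x).erase x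
def M (N C : V → Finset V) (x : V) : Finset V := univ \ li N C x
def K (N B : V → Finset V) (x : V) : Finset V := univ.filter (fun a => x ∈ cl N (li N B a))

theorem mem_H {a x : V} : a ∈ H B x ↔ x ∈ B a := by simp [H]
theorem mem_H' {a x : V} : a ∈ H' B x ↔ a ≠ x ∧ x ∈ B a := by simp [H', H]
theorem mem_G {a x : V} : a ∈ G C x ↔ a ∉ C x := by simp [G]
theorem mem_R {a x : V} : a ∈ R N B x ↔ ∃ y ∈ B a, x ∈ N y := by simp [R, mem_cl]
theorem mem_R' {a x : V} : a ∈ R' N B x ↔ a ≠ x ∧ ∃ y ∈ B a, x ∈ N y := by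
  simp only [R', mem_erase, mem_R]
theorem mem_M {a x : V} : a ∈ M N C x ↔ ∃ s, x ∈ N s ∧ a ∉ C s := by
  simp only [M, mem_sdiff, mem_univ, true_and, mem_li]; push Not; rfl
theorem mem_K {a x : V} : a ∈ K N B x ↔ ∃ y, (∀ s, a ∈ N s → y ∈ B s) ∧ x ∈ N y := by
  simp only [K, mem_filter, mem_univ, true_and, mem_cl, mem_li]

theorem sum_rows (w v : V → ℝ) (S : V → Finset V) :
    ∑ a, w a * ∑ x ∈ S a, v x = ∑ x, v x * ∑ a ∈ univ.filter (fun a => x ∈ S a), w a := by
  have h1 : ∀ a, w a * ∑ x ∈ S a, v x = ∑ x, if x ∈ S a then w a * v x else 0 := by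
    intro a
    rw [Finset.mul_sum, Finset.sum_ite_mem, Finset.univ_inter]
  have h2 : ∀ x, v x * ∑ a ∈ univ.filter (fun a => x ∈ S a), w a
      = ∑ a, if x ∈ S a then w a * v x else 0 := by
    intro x
    rw [Finset.mul_sum, Finset.sum_filter]
    apply Finset.sum_congr rfl
    intro a _
    split_ifs <;> ring
  simp only [h1, h2]
  exact Finset.sum_comm

/-- Rows cost, read by columns. -/
theorem cost_rows (B : V → Finset V) :
    ∑ a, w a * cost N v (B a) = ∑ x, v x * (∑ a ∈ R N B x, w a - ∑ a ∈ H B x, w a) := by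
  have h1 := sum_rows w v (fun a => cl N (B a))
  have h2 := sum_rows w v B
  simp only [cost, mul_sub, Finset.sum_sub_distrib]
  rw [h1, h2]; rfl

theorem H_li (x : V) : H (li N B) x = it N (H B x) := by
  ext a; simp only [mem_H, mem_li, mem_it]

theorem R_li (x : V) : R N (li N B) x = K N B x := rfl

variable (hN : ∀ a, a ∈ N a) (ho : ∀ a b, b ∈ N a → a ∈ N b → a = b) (hw : ∀ a, 0 ≤ w a)
  (hv : ∀ a, 0 ≤ v a) (hE : Equi N w v B C)

include ho hE in
theorem notB {a x : V} (hx : x ∈ B a) (h : a ∈ N x) : a = x :=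
  hE.disj a x hx (hE.hC x h)

include hN ho hE in
/-- The diagonal does not matter for `H`. -/
theorem diagH (x : V) :
    ∑ a ∈ H B x, w a - ∑ a ∈ it N (H B x), w a = cm N w (H' B x) := by
  have hx : x ∈ H B x := mem_H.mpr (hE.hB x (hN x))
  have h1 : ∑ a ∈ H B x, w a = ∑ a ∈ H' B x, w a + w x := by
    rw [H', Finset.sum_erase_add _ _ hx]
  have hxi : x ∈ it N (H B x) := by
    rw [mem_it]; intro s hs; exact mem_H.mpr (hE.hB s hs)
  have h2 : (it N (H B x)).erase x = it N (H' B x) := by
    ext a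
    simp only [mem_erase, mem_it, mem_H, mem_H']
    constructor
    · rintro ⟨hax, h⟩ s hs
      refine ⟨?_, h s hs⟩
      rintro rfl
      exact hax (notB ho hE (h a (hN a)) hs)
    · intro h
      refine ⟨?_, fun s hs => (h s hs).2⟩
      rintro rfl
      exact (h a (hN a)).1 rfl
  have h3 : ∑ a ∈ it N (H B x), w a = ∑ a ∈ it N (H' B x), w a + w x := by
    rw [← h2, Finset.sum_erase_add _ _ hxi]
  rw [h1, h3, cm]; ring

include hN ho hw hE in
/-- The diagonal does not matter for `R`. -/
theorem diagR (x : V) :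
    cm N w (R' N B x) ≤ ∑ a ∈ R N B x, w a - ∑ a ∈ K N B x, w a := by
  have hx : x ∈ R N B x := mem_R.mpr ⟨x, hE.hB x (hN x), hN x⟩
  have h1 : ∑ a ∈ R N B x, w a = ∑ a ∈ R' N B x, w a + w x := by
    rw [R', Finset.sum_erase_add _ _ hx]
  have hxK : x ∈ K N B x := by
    rw [mem_K]; exact ⟨x, fun s hs => hE.hB s hs, hN x⟩
  have h3 : ∑ a ∈ K N B x, w a = ∑ a ∈ (K N B x).erase x, w a + w x := by
    rw [Finset.sum_erase_add _ _ hxK]
  have h4 : ∑ a ∈ (K N B x).erase x, w a ≤ ∑ a ∈ it N (R' N B x), w a := by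
    apply Finset.sum_le_sum_of_subset_of_nonneg
    · intro a ha
      rw [mem_erase, mem_K] at ha
      obtain ⟨hax, y, hy, hxy⟩ := ha
      rw [mem_it]
      intro s hs
      rw [mem_R']
      refine ⟨?_, y, hy s hs, hxy⟩
      rintro rfl
      -- `s = x`, `x → a`
      have hyx : y ∈ B s := hy s hs
      have : s = y := notB ho hE hyx hxy
      subst this
      exact hax (notB ho hE (hy a (hN a)) hs)
    · intro i _ _; exact hw i
  rw [h1, h3, cm]; linarith

include hE in
theorem H'_sub_G (x : V) : H' B x ⊆ G C x := by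
  intro a ha
  rw [mem_H'] at ha
  rw [mem_G]
  intro h; exact ha.1 (hE.disj a x ha.2 h)

include ho hE in
theorem H'_sub_R' {x y : V} (hy : x ∈ N y) : H' B y ⊆ R' N B x := by
  intro a ha
  rw [mem_H'] at ha
  rw [mem_R']
  refine ⟨?_, y, ha.2, hy⟩
  rintro rfl
  exact ha.1 (notB ho hE ha.2 hy)

theorem G_sub_M {x y : V} (hy : x ∈ N y) : G C y ⊆ M N C x := by
  intro a ha
  rw [mem_M]; exact ⟨y, hy, mem_G.mp ha⟩

include hN hE in
theorem R'_sub_M (x : V) : R' N B x ⊆ M N C x := by
  intro a ha
  rw [mem_R'] at ha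
  obtain ⟨hax, y, hy, hxy⟩ := ha
  rw [mem_M]
  by_cases hay : a = y
  · subst hay
    refine ⟨x, hN x, ?_⟩
    intro h
    exact hax (hE.disj a x (hE.hB a hxy) h)
  · exact ⟨y, hxy, fun h => hay (hE.disj a y hy h)⟩

include hE in
/-- Column optimality. -/
theorem colopt (y : V) {Z : Finset V} (h1 : H' B y ⊆ Z) (h2 : Z ⊆ G C y) :
    cm N w (G C y) ≤ cm N w Z := by
  have h := hE.col y (univ \ Z) (by
      intro a ha
      rw [mem_sdiff]
      refine ⟨mem_univ _, fun h => ?_⟩
      exact (mem_G.mp (h2 h)) (hE.hC y ha))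
    (by
      intro a ha hya
      by_contra hne
      exact (mem_sdiff.mp ha).2 (h1 (mem_H'.mpr ⟨hne, hya⟩)))
  rw [cost_eq_cm, cost_eq_cm] at h
  have e1 : univ \ (univ \ Z) = Z := by ext a; simp
  rw [e1] at h
  exact h

include hw hE in
theorem colunion (y : V) {Z : Finset V} (h1 : H' B y ⊆ Z) :
    cm N w (Z ∪ G C y) ≤ cm N w Z := by
  have h := cm_submod N w hw Z (G C y)
  have h2 := colopt hE y (Z := Z ∩ G C y) (Finset.subset_inter h1 (H'_sub_G hE y))
    Finset.inter_subset_right
  linarith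

include ho hw hE in
theorem Mopt (x : V) {Z : Finset V} (h1 : R' N B x ⊆ Z) (h2 : Z ⊆ M N C x) :
    cm N w (M N C x) ≤ cm N w Z := by
  have key : ∀ T : Finset V, (∀ y ∈ T, x ∈ N y) →
      cm N w (Z ∪ T.biUnion (G C)) ≤ cm N w Z := by
    intro T
    induction T using Finset.induction_on with
    | empty => intro _; simp
    | insert y T _ ih =>
      intro hT
      have h3 := ih (fun z hz => hT z (Finset.mem_insert_of_mem hz))
      have h4 : H' B y ⊆ Z ∪ T.biUnion (G C) :=
        ((H'_sub_R' ho hE (hT y (Finset.mem_insert_self y T))).trans h1).trans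
          Finset.subset_union_left
      have h5 := colunion hw hE y h4
      have e1 : Z ∪ (insert y T).biUnion (G C) = Z ∪ T.biUnion (G C) ∪ G C y := by
        rw [Finset.biUnion_insert]
        ext a; simp only [mem_union]; tauto
      rw [e1]; exact h5.trans h3
  have h3 := key (univ.filter (fun y => x ∈ N y)) (by intro y hy; exact (mem_filter.mp hy).2)
  have e1 : Z ∪ (univ.filter (fun y => x ∈ N y)).biUnion (G C) = M N C x := by
    ext a
    simp only [mem_union, mem_biUnion, mem_filter, mem_univ, true_and]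
    constructor
    · rintro (h | ⟨y, hy, ha⟩)
      · exact h2 h
      · exact G_sub_M hy ha
    · intro h
      rw [mem_M] at h
      obtain ⟨y, hy, ha⟩ := h
      exact Or.inr ⟨y, hy, mem_G.mpr ha⟩
  rw [e1] at h3
  exact h3

/-- The whole column side. -/
theorem ff_top_H (e : V ≃ Fin (Fintype.card V)) (hE : Equi N w v B C) (x : V) :
    cm N w (G C x) ≤ ff e (cm N w) (H' B x) (G C x) (Fintype.card V) ∧
      ff e (cm N w) (H' B x) (G C x) (Fintype.card V) ≤ cm N w (G C x) := by
  have hHG := H'_sub_G hE x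
  constructor
  · obtain ⟨Z, h1, h2, h3⟩ := exists_ff e (cm N w) (H' B x) (G C x) (Fintype.card V)
    rw [h3]
    apply colopt hE x h1
    rw [P_top, Finset.inter_univ, Finset.union_eq_right.mpr hHG] at h2
    exact h2
  · apply ff_le e (cm N w) hHG
    rw [P_top, Finset.inter_univ]; exact Finset.subset_union_right

include ho hw hN in
theorem ff_top_R (e : V ≃ Fin (Fintype.card V)) (hE : Equi N w v B C) (x : V) :
    cm N w (M N C x) ≤ ff e (cm N w) (R' N B x) (M N C x) (Fintype.card V) := by
  have hHG := R'_sub_M hN hE x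
  obtain ⟨Z, h1, h2, h3⟩ := exists_ff e (cm N w) (R' N B x) (M N C x) (Fintype.card V)
  rw [h3]
  apply Mopt ho hw hE x h1
  rw [P_top, Finset.inter_univ, Finset.union_eq_right.mpr hHG] at h2
  exact h2

include hN ho hw hv in
/-- The transport inequality `(T)`. -/
theorem transport (hE : Equi N w v B C) :
    ∑ x, v x * (cm N w (H' B x) - cm N w (G C x)) ≤
      ∑ x, v x * (cm N w (R' N B x) - cm N w (M N C x)) := by
  set e : V ≃ Fin (Fintype.card V) := Fintype.equivFin V
  have hc := cm_submod N w hw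
  -- row inequality for every base
  have hrow : ∀ a, ∑ x, v x * eps e (cm N w) (H' B x) (G C x) a ≤
      ∑ x, v x * eps e (cm N w) (R' N B x) (M N C x) a := by
    intro a
    set L₀ : Finset V := univ.filter (fun x => a ∉ C x ∧ x ∉ B a) with hL₀
    have h := layer N v L₀ (cl N (B a)) (by
        intro L hL
        have hr := hE.row a (B a ∪ L) ((hE.hB a).trans Finset.subset_union_left) (by
          intro x hx hax
          rcases Finset.mem_union.mp hx with h | h
          · exact hE.disj a x h hax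
          · exact absurd hax (mem_filter.mp (hL h)).2.1)
        have hd : Disjoint (B a) L := by
          rw [Finset.disjoint_left]
          intro x hx hxL
          exact (mem_filter.mp (hL hxL)).2.2 hx
        have e1 : ∑ x ∈ B a ∪ L, v x = ∑ x ∈ B a, v x + ∑ x ∈ L, v x :=
          Finset.sum_union hd
        have e2 : ∑ x ∈ cl N (B a ∪ L), v x = ∑ x ∈ cl N (B a), v x
            + ∑ x ∈ L.biUnion N \ cl N (B a), v x := by
          rw [← Finset.sum_union Finset.disjoint_sdiff]
          apply Finset.sum_congr _ (fun _ _ => rfl)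
          ext x
          simp only [mem_cl, mem_union, mem_sdiff, mem_biUnion]
          constructor
          · rintro ⟨y, hy | hy, hxy⟩
            · exact Or.inl ⟨y, hy, hxy⟩
            · by_cases h : ∃ y ∈ B a, x ∈ N y
              · exact Or.inl h
              · exact Or.inr ⟨⟨y, hy, hxy⟩, h⟩
          · rintro (⟨y, hy, hxy⟩ | ⟨⟨y, hy, hxy⟩, _⟩)
            · exact ⟨y, Or.inl hy, hxy⟩
            · exact ⟨y, Or.inr hy, hxy⟩
        simp only [cost] at hr
        rw [e1, e2] at hr
        linarith)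
      _ (fun x => eps e (cm N w) (H' B x) (G C x) a)
      (fun x => eps e (cm N w) (R' N B x) (M N C x) a) rfl
      (fun x => eps_nonneg e _ _ _ a)
      (by
        intro x hx
        apply eps_zero
        by_cases h1 : a ∈ C x
        · left; rw [mem_G]; exact fun h => h h1
        · right
          rw [mem_H']
          have h2 : x ∈ B a := by
            by_contra h2; exact hx (mem_filter.mpr ⟨mem_univ _, h1, h2⟩)
          refine ⟨?_, h2⟩
          rintro rfl
          exact h1 (hE.hC a (hN a)))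
      (fun x _ => eps_nonneg e _ _ _ a)
      (by
        intro x hx y _ hxy
        apply eps_mono e _ hc (H'_sub_R' ho hE hxy) (G_sub_M hxy)
        rw [mem_R']
        rintro ⟨_, z, hz, hxz⟩
        exact hx (mem_cl.mpr ⟨z, hz, hxz⟩))
      hv
    refine h.trans ?_
    apply Finset.sum_le_sum_of_subset_of_nonneg (Finset.subset_univ _)
    intro x _ _
    exact mul_nonneg (hv x) (eps_nonneg e _ _ _ a)
  have h1 : ∑ x, v x * (cm N w (H' B x) - cm N w (G C x)) =
      ∑ a, ∑ x, v x * eps e (cm N w) (H' B x) (G C x) a := by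
    rw [Finset.sum_comm]
    apply Finset.sum_congr rfl
    intro x _
    rw [← Finset.mul_sum, sum_eps]
    obtain ⟨h1, h2⟩ := ff_top_H e hE x
    rw [le_antisymm h2 h1]
  have h2 : ∑ a, ∑ x, v x * eps e (cm N w) (R' N B x) (M N C x) a ≤
      ∑ x, v x * (cm N w (R' N B x) - cm N w (M N C x)) := by
    rw [Finset.sum_comm]
    apply Finset.sum_le_sum
    intro x _
    rw [← Finset.mul_sum, sum_eps]
    apply mul_le_mul_of_nonneg_left _ (hv x)
    have := ff_top_R hN ho hw e hE x
    linarith
  rw [h1]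
  exact (Finset.sum_le_sum (fun a _ => hrow a)).trans h2

include hN ho hw hv in
/-- **(LK)**: the left interiors of an equilibrium of the outer problem cost at most as much. -/
theorem lk (hE : Equi N w v B C) :
    ∑ a, w a * cost N v (li N B a) + ∑ x, v x * cost N w (li N C x) ≤
      ∑ a, w a * cost N v (B a) + ∑ x, v x * cost N w (C x) := by
  have hT := transport hN ho hw hv hE
  have e1 : ∑ a, w a * cost N v (B a) = _ := cost_rows (N := N) (w := w) (v := v) B
  have e2 : ∑ a, w a * cost N v (li N B a) =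
      ∑ x, v x * (∑ a ∈ K N B x, w a - ∑ a ∈ it N (H B x), w a) := by
    rw [cost_rows]
    apply Finset.sum_congr rfl
    intro x _
    rw [R_li, H_li]
  have e3 : ∑ x, v x * cost N w (C x) = ∑ x, v x * cm N w (G C x) := by
    apply Finset.sum_congr rfl
    intro x _
    rw [cost_eq_cm]; rfl
  have e4 : ∑ x, v x * cost N w (li N C x) = ∑ x, v x * cm N w (M N C x) := by
    apply Finset.sum_congr rfl
    intro x _
    rw [cost_eq_cm]; rfl
  have h5 : ∑ x, v x * (∑ a ∈ K N B x, w a - ∑ a ∈ it N (H B x), w a)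
      - ∑ x, v x * (∑ a ∈ R N B x, w a - ∑ a ∈ H B x, w a) ≤
      ∑ x, v x * (cm N w (H' B x) - cm N w (R' N B x)) := by
    rw [← Finset.sum_sub_distrib]
    apply Finset.sum_le_sum
    intro x _
    rw [← mul_sub]
    apply mul_le_mul_of_nonneg_left _ (hv x)
    have := diagH hN ho (w := w) hE x
    have := diagR hN ho hw hE x
    linarith
  rw [e1, e2, e3, e4]
  have h6 : ∑ x, v x * (cm N w (H' B x) - cm N w (R' N B x)) =
      ∑ x, v x * (cm N w (H' B x) - cm N w (G C x)) -
      ∑ x, v x * (cm N w (R' N B x) - cm N w (M N C x)) +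
      (∑ x, v x * cm N w (G C x) - ∑ x, v x * cm N w (M N C x)) := by
    simp only [← Finset.sum_sub_distrib, ← Finset.sum_add_distrib]
    apply Finset.sum_congr rfl
    intro x _; ring
  linarith

include hN ho in
/-- The left interiors of a compatible outer pair form a compatible inner pair. -/
theorem inner_feasible (hE : Equi N w v B C) :
    (∀ a, a ∈ li N B a) ∧ (∀ x, x ∈ li N C x) ∧
      ∀ a b, b ∈ cl N (li N B a) → a ∈ cl N (li N C b) → a = b := by
  refine ⟨fun a => mem_li.mpr fun s hs => hE.hB s hs, fun a => mem_li.mpr fun s hs => hE.hC s hs, ?_⟩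
  intro a b hb ha
  obtain ⟨x, hx, hbx⟩ := mem_cl.mp hb
  obtain ⟨y, hy, hay⟩ := mem_cl.mp ha
  rw [mem_li] at hx hy
  -- `x ∈ B y`, `y ∈ C x`
  have hxy : y = x := hE.disj y x (hx y hay) (hy x hbx)
  subst hxy
  -- now `y → a`, `y → b`, `y ∈ B a`, `y ∈ C b`
  have h1 : a = y := notB ho hE (hx a (hN a)) hay
  have h2 : b = y := by
    have hyC : y ∈ C b := hy b (hN b)
    have hbB : b ∈ B y := hE.hB y hbx
    exact (hE.disj y b hbB hyC).symm
  rw [h1, h2]

end

end Vale.Agent.P038.H558
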