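import Vale.Agent.P038.H558.LK

/-! P038 (helper558): minimisers of the outer and of the inner problem, and the contradiction with
the gap inequality `cost (cl X) < cost X`. -/

namespace Vale.Agent.P038.H558

open Finset

variable {V : Type*} [Fintype V] [DecidableEq V]

/-- Total cost of a relation given by rows. -/
def En (N : V → Finset V) (w : V → ℝ) (B : V → Finset V) : ℝ := ∑ a, w a * cost N w (B a)

/-- Compatible outer pairs. -/
def Out (N : V → Finset V) (p : (V → Finset V) × (V → Finset V)) : Prop :=
  (∀ a, N a ⊆ p.1 a) ∧ (∀ x, N x ⊆ p.2 x) ∧ ∀ a x, x ∈ p.1 a → a ∈ p.2 x → a = x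

/-- Compatible inner pairs. -/
def Inn (N : V → Finset V) (p : (V → Finset V) × (V → Finset V)) : Prop :=
  (∀ a, a ∈ p.1 a) ∧ (∀ x, x ∈ p.2 x) ∧
    ∀ a b, b ∈ cl N (p.1 a) → a ∈ cl N (p.2 b) → a = b

theorem En_update (N : V → Finset V) (w : V → ℝ) (B : V → Finset V) (a : V) (R : Finset V) :
    En N w (Function.update B a R) = En N w B + w a * (cost N w R - cost N w (B a)) := by
  have h : ∑ b, (w b * cost N w (Function.update B a R b) - w b * cost N w (B b)) =
      w a * (cost N w R - cost N w (B a)) := by
    rw [Finset.sum_eq_single a]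
    · rw [Function.update_self]; ring
    · intro b _ hb
      rw [Function.update_of_ne hb]; ring
    · intro h; exact absurd (mem_univ a) h
  rw [Finset.sum_sub_distrib] at h
  unfold En
  linarith

variable {N : V → Finset V} {w : V → ℝ}

/-- An outer minimiser is an equilibrium. -/
theorem equi_of_min (hw : ∀ a, 0 < w a) {p : (V → Finset V) × (V → Finset V)} (hp : Out N p)
    (hmin : ∀ q, Out N q → En N w p.1 + En N w p.2 ≤ En N w q.1 + En N w q.2) :
    Equi N w w p.1 p.2 := by
  obtain ⟨hB, hC, hd⟩ := hp
  refine ⟨hB, hC, hd, ?_, ?_⟩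
  · intro a R hR hRd
    have h1 : Out N (Function.update p.1 a R, p.2) := by
      refine ⟨?_, hC, ?_⟩
      · intro b
        by_cases hb : b = a
        · subst hb; simpa using hR
        · simpa [Function.update_of_ne hb] using hB b
      · intro b x hx hbx
        by_cases hb : b = a
        · subst hb
          simp only [Function.update_self] at hx
          exact hRd x hx hbx
        · simp only [Function.update_of_ne hb] at hx
          exact hd b x hx hbx
    have h2 := hmin _ h1
    simp only [En_update] at h2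
    have h3 : 0 ≤ w a * (cost N w R - cost N w (p.1 a)) := by linarith
    have h4 := nonneg_of_mul_nonneg_right h3 (hw a)
    linarith
  · intro x R hR hRd
    have h1 : Out N (p.1, Function.update p.2 x R) := by
      refine ⟨hB, ?_, ?_⟩
      · intro b
        by_cases hb : b = x
        · subst hb; simpa using hR
        · simpa [Function.update_of_ne hb] using hC b
      · intro a y hy hay
        by_cases hb : y = x
        · subst hb
          simp only [Function.update_self] at hay
          exact hRd a hay hy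
        · simp only [Function.update_of_ne hb] at hay
          exact hd a y hy hay
    have h2 := hmin _ h1
    simp only [En_update] at h2
    have h3 : 0 ≤ w x * (cost N w R - cost N w (p.2 x)) := by linarith
    have h4 := nonneg_of_mul_nonneg_right h3 (hw x)
    linarith

/-- For every compatible inner pair there is a compatible inner pair which costs at most as much
as the closure of the given pair: `m₁ ≤ m₂`. -/
theorem main_ineq (hN : ∀ a, a ∈ N a) (ho : ∀ a b, b ∈ N a → a ∈ N b → a = b)
    (hw : ∀ a, 0 < w a) (p : (V → Finset V) × (V → Finset V)) (hp : Inn N p) :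
    ∃ q, Inn N q ∧ En N w q.1 + En N w q.2 ≤
      En N w (fun a => cl N (p.1 a)) + En N w (fun a => cl N (p.2 a)) := by
  have hpo : Out N (fun a => cl N (p.1 a), fun a => cl N (p.2 a)) := by
    refine ⟨fun a x hx => mem_cl.mpr ⟨a, hp.1 a, hx⟩, fun a x hx => mem_cl.mpr ⟨a, hp.2.1 a, hx⟩, ?_⟩
    intro a x hx hax
    exact hp.2.2 a x hx hax
  obtain ⟨r, hr, hmin⟩ := Set.exists_min_image {q | Out N q}
    (fun q => En N w q.1 + En N w q.2) (Set.toFinite _) ⟨_, hpo⟩
  have hE := equi_of_min hw hr (fun q hq => hmin q hq)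
  have h1 := lk hN ho (fun a => (hw a).le) (fun a => (hw a).le) hE
  have h2 := inner_feasible hN ho hE
  refine ⟨(li N r.1, li N r.2), h2, ?_⟩
  have h3 := hmin _ hpo
  simp only at h3
  unfold En at h3 ⊢
  linarith

/-- The contradiction: if every vertex has an out-neighbour, the gap inequality
`cost (cl X) < cost X` cannot hold for all non-closed sets `X`. -/
theorem no_gap [Nonempty V] (hN : ∀ a, a ∈ N a) (ho : ∀ a b, b ∈ N a → a ∈ N b → a = b)
    (hw : ∀ a, 0 < w a) (hout : ∀ a, ∃ b ∈ N a, b ≠ a)
    (hG : ∀ X : Finset V, cl N X ≠ X → cost N w (cl N X) < cost N w X) : False := by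
  have hle : ∀ X : Finset V, cost N w (cl N X) ≤ cost N w X := by
    intro X
    by_cases h : cl N X = X
    · rw [h]
    · exact (hG X h).le
  -- the inner minimiser
  have hne : Inn N (fun a => {a}, fun a => {a}) := by
    refine ⟨fun a => by simp, fun a => by simp, ?_⟩
    intro a b hb ha
    simp only [mem_cl, mem_singleton, exists_eq_left] at hb ha
    exact ho a b hb ha
  obtain ⟨p, hp, hmin⟩ := Set.exists_min_image {q | Inn N q}
    (fun q => En N w q.1 + En N w q.2) (Set.toFinite _) ⟨_, hne⟩
  obtain ⟨q, hq, hqp⟩ := main_ineq hN ho hw p hp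
  have h1 := hmin q hq
  -- termwise comparison
  have hle1 : ∀ B : V → Finset V, ∀ a, w a * cost N w (cl N (B a)) ≤ w a * cost N w (B a) :=
    fun B a => mul_le_mul_of_nonneg_left (hle _) (hw a).le
  have hs1 : En N w (fun a => cl N (p.1 a)) ≤ En N w p.1 := by
    unfold En
    exact Finset.sum_le_sum fun a _ => hle1 p.1 a
  have hs2 : En N w (fun a => cl N (p.2 a)) ≤ En N w p.2 := by
    unfold En
    exact Finset.sum_le_sum fun a _ => hle1 p.2 a
  have e1 : En N w (fun a => cl N (p.1 a)) = En N w p.1 := by linarith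
  have e2 : En N w (fun a => cl N (p.2 a)) = En N w p.2 := by linarith
  have hclosed : ∀ B : V → Finset V, En N w (fun a => cl N (B a)) = En N w B →
      ∀ a, cl N (B a) = B a := by
    intro B hB a
    by_contra hcon
    have h2 := hG _ hcon
    have h3 : En N w (fun a => cl N (B a)) < En N w B := by
      unfold En
      exact Finset.sum_lt_sum (fun a _ => hle1 B a)
        ⟨a, mem_univ a, mul_lt_mul_of_pos_left h2 (hw a)⟩
    linarith
  have hc1 := hclosed p.1 e1
  have hc2 := hclosed p.2 e2
  -- a minimal nonempty closed set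
  obtain ⟨S, ⟨hSne, hScl⟩, hSmin⟩ := Set.exists_min_image
    {S : Finset V | S.Nonempty ∧ cl N S = S} Finset.card (Set.toFinite _)
    ⟨univ, univ_nonempty, by
      ext x
      simp only [mem_cl, mem_univ, true_and, iff_true]
      exact ⟨x, hN x⟩⟩
  have key : ∀ T : Finset V, cl N T = T → (T ∩ S).Nonempty → S ⊆ T := by
    intro T hT hTS
    have h3 : cl N (T ∩ S) = T ∩ S := by
      ext x
      rw [mem_inter]
      constructor
      · intro hx
        obtain ⟨y, hy, hyx⟩ := mem_cl.mp hx
        rw [mem_inter] at hy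
        refine ⟨?_, ?_⟩
        · rw [← hT]; exact mem_cl.mpr ⟨y, hy.1, hyx⟩
        · rw [← hScl]; exact mem_cl.mpr ⟨y, hy.2, hyx⟩
      · intro hx
        exact mem_cl.mpr ⟨x, mem_inter.mpr hx, hN x⟩
    have h4 := hSmin (T ∩ S) ⟨hTS, h3⟩
    have h5 : T ∩ S = S := Finset.eq_of_subset_of_card_le inter_subset_right h4
    rw [← h5]
    exact inter_subset_left
  obtain ⟨a, haS⟩ := hSne
  obtain ⟨b, hba, hne'⟩ := hout a
  have hbS : b ∈ S := by rw [← hScl]; exact mem_cl.mpr ⟨a, haS, hba⟩
  have h5 := key _ (hc1 a) ⟨a, mem_inter.mpr ⟨hp.1 a, haS⟩⟩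
  have h6 := key _ (hc2 b) ⟨b, mem_inter.mpr ⟨hp.2.1 b, hbS⟩⟩
  have h7 := hp.2.2 a b (by rw [hc1]; exact h5 hbS) (by rw [hc2]; exact h6 haS)
  exact hne' h7.symm

end Vale.Agent.P038.H558
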