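import Vale.Agent.P038.H558.Min
import Vale.Agent.P038.H71.Plan

/-! P038 (helper558): Seymour's second neighbourhood conjecture. -/

namespace Vale.Agent.P038.H558

open Finset Vale.Agent.P038.H139 Vale.Agent.P038.H71

universe u

variable {V : Type u} [Fintype V] [DecidableEq V]

/-- Closed out-balls. -/
noncomputable def Nb' (D : OGraph V) (a : V) : Finset V := insert a (N1 D a)

theorem mem_Nb' {D : OGraph V} {a x : V} : x ∈ Nb' D a ↔ x = a ∨ D.arc a x := by
  rw [Nb', mem_insert, mem_N1]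

theorem cl_eq (D : OGraph V) (S : Finset V) : H558.cl (Nb' D) S = H139.cl D S := by
  ext z
  rw [H558.mem_cl, H139.mem_cl]
  constructor
  · rintro ⟨y, hy, hz⟩
    rcases mem_Nb'.mp hz with rfl | h
    · exact Or.inl hy
    · exact Or.inr ⟨y, hy, h⟩
  · rintro (h | ⟨y, hy, h⟩)
    · exact ⟨z, h, mem_Nb'.mpr (Or.inl rfl)⟩
    · exact ⟨y, hy, mem_Nb'.mpr (Or.inr h)⟩

theorem cl_union_Lx (D : OGraph V) (X : Finset V) : H139.cl D X = X ∪ Lx D X := by
  ext z
  rw [H139.mem_cl, mem_union]
  unfold Lx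
  rw [mem_sdiff, mem_outS]
  tauto

theorem disj_Lx (D : OGraph V) (X : Finset V) : Disjoint X (Lx D X) := by
  rw [Finset.disjoint_left]
  intro z hz hz'
  exact (mem_sdiff.mp hz').2 hz

theorem cost_eq (D : OGraph V) (w : V → ℝ) (X : Finset V) :
    cost (Nb' D) w X = W w (Lx D X) := by
  unfold cost
  rw [cl_eq, cl_union_Lx]
  have h := W_union (w := w) (disj_Lx D X)
  unfold W at h ⊢
  linarith

theorem cost_cl_eq (D : OGraph V) (w : V → ℝ) (X : Finset V) :
    cost (Nb' D) w (H558.cl (Nb' D) X) = W w (H139.cl D (Lx D X) \ X) - W w (Lx D X) := by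
  unfold cost
  rw [cl_eq, cl_eq]
  have hX : ∀ y, y ∈ H139.cl D X ↔ y ∈ X ∨ y ∈ Lx D X := fun y => by
    rw [cl_union_Lx, mem_union]
  have h1 : H139.cl D (H139.cl D X) = X ∪ (H139.cl D (Lx D X) \ X) := by
    ext z
    constructor
    · intro hh
      by_cases hz : z ∈ X
      · exact mem_union_left _ hz
      · refine mem_union_right _ (mem_sdiff.mpr ⟨?_, hz⟩)
        rcases H139.mem_cl.mp hh with h | ⟨y, hy, hyz⟩
        · rcases (hX z).mp h with h | h
          · exact absurd h hz
          · exact H139.mem_cl.mpr (Or.inl h)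
        · rcases (hX y).mp hy with h | h
          · exact H139.mem_cl.mpr (Or.inl (mem_sdiff.mpr ⟨mem_outS.mpr ⟨y, h, hyz⟩, hz⟩))
          · exact H139.mem_cl.mpr (Or.inr ⟨y, h, hyz⟩)
    · intro hh
      rcases mem_union.mp hh with h | h
      · exact H139.mem_cl.mpr (Or.inl ((hX z).mpr (Or.inl h)))
      · rcases H139.mem_cl.mp (mem_sdiff.mp h).1 with h | ⟨y, hy, hyz⟩
        · exact H139.mem_cl.mpr (Or.inl ((hX z).mpr (Or.inr h)))
        · exact H139.mem_cl.mpr (Or.inr ⟨y, (hX y).mpr (Or.inr hy), hyz⟩)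
  have h2 : Disjoint X (H139.cl D (Lx D X) \ X) := disjoint_sdiff
  have h3 := W_union (w := w) h2
  have h4 := W_union (w := w) (disj_Lx D X)
  have h5 : ∑ x ∈ H139.cl D X, w x = ∑ x ∈ X ∪ Lx D X, w x := by rw [cl_union_Lx]
  rw [h1, h5]
  unfold W at h3 h4 ⊢
  linarith

/-- No counterexample in normal form. -/
theorem no_nf (V : Type u) [Fintype V] [Nonempty V] (D : OGraph V) (w : V → ℝ) :
    ¬ NF 1 D w := by
  classical
  intro h0
  obtain ⟨D, w, h⟩ := exists_nfmin h0
  have hnf := h.toNF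
  refine no_gap (N := Nb' D) (w := w) (fun a => mem_Nb'.mpr (Or.inl rfl)) ?_ hnf.pos ?_ ?_
  · intro a b hb ha
    rcases mem_Nb'.mp hb with h1 | h1
    · exact h1.symm
    · rcases mem_Nb'.mp ha with h2 | h2
      · exact h2
      · exact absurd h2 (D.asymm a b h1)
  · intro a
    by_contra hcon
    push Not at hcon
    have h1 := hnf.one a
    have h2 : N1 D a = ∅ := by
      rw [Finset.eq_empty_iff_forall_notMem]
      intro b hb
      have h3 := hcon b (mem_Nb'.mpr (Or.inr (mem_N1.mp hb)))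
      subst h3
      exact D.loopless b (mem_N1.mp hb)
    have h3 : 0 ≤ W w (N2 D a) := W_nonneg hnf.nonneg _
    unfold Fw at h1
    rw [h2] at h1
    simp only [W, Finset.sum_empty] at h1 h3
    linarith
  · intro X hX
    rw [cost_cl_eq, cost_eq]
    have hL : (∅ : Finset V) ⊂ Lx D X := by
      rw [Finset.empty_ssubset]
      by_contra hcon
      rw [Finset.not_nonempty_iff_eq_empty] at hcon
      apply hX
      rw [cl_eq, cl_union_Lx, hcon, Finset.union_empty]
    have h1 := plan_lt h X ∅ hL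
    unfold dd at h1
    have h2 : H139.cl D (∅ : Finset V) = ∅ := by
      rw [Finset.eq_empty_iff_forall_notMem]
      intro z hz
      rcases H139.mem_cl.mp hz with h3 | ⟨y, hy, _⟩
      · exact absurd h3 (Finset.notMem_empty z)
      · exact absurd hy (Finset.notMem_empty y)
    rw [h2, Finset.empty_sdiff] at h1
    have h3 : W w (∅ : Finset V) = 0 := by simp [W]
    rw [h3] at h1
    linarith

/-- **Seymour's second neighbourhood conjecture**, weighted form. -/
theorem snc_weighted {V : Type u} [Fintype V] [Nonempty V] (D : OGraph V) (w : V → ℝ)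
    (hw : ∀ v, 0 ≤ w v) : ∃ v, ∑ u ∈ N1 D v, w u ≤ ∑ u ∈ N2 D v, w u := by
  obtain ⟨v, hv⟩ := snc_of_noNF (lam := 1) zero_le_one (fun V _ _ D w => no_nf V D w) D w hw
  exact ⟨v, by linarith⟩

/-- **Seymour's second neighbourhood conjecture**. -/
theorem snc {V : Type u} [Fintype V] [Nonempty V] (D : OGraph V) :
    ∃ v, (N1 D v).card ≤ (N2 D v).card := by
  obtain ⟨v, hv⟩ := snc_weighted D (fun _ => 1) (fun _ => zero_le_one)
  refine ⟨v, ?_⟩
  simp only [Finset.sum_const, nsmul_eq_mul, mul_one] at hv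
  exact_mod_cast hv

end Vale.Agent.P038.H558
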